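import Vale.Agent.P365.T2.PathB963
import Vale.Agent.P365.T2.UpsGen844

/-!
# P365 T2: smoothness on the lower half plane of the functionals of `UpsGen844`
-/

set_option autoImplicit false
set_option linter.all false

namespace P365L.T2.Path

open P365L P365T1 P365O Vale.Agent.P365.J376 P365T2.H844 Matrix Complex MeasureTheory Filter Topology Set
open P365T2.H37 (wk HH HD rho)
open scoped RealInnerProductSpace ComplexConjugate

variable {E : Type*} [NormedAddCommGroup E] [InnerProductSpace ℝ E]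
variable {ι : Type*} [Fintype ι] [DecidableEq ι] {Φ : ι → E} {A : Matrix ι ι ℝ} {n : WithTop ℕ∞}

/-! ### energies and flows -/

theorem contDiffOn_TT (hA : A.IsSymm) (x y : ι) :
    ContDiffOn ℝ n (fun W : ι → ℂ => TT A W x y) (LH ι) :=
  ((contDiff_e x).contDiffOn.mul (contDiff_e y).contDiffOn).mul (contDiffOn_KK hA x y)

theorem contDiffOn_pr (hA : A.IsSymm) (x : ι) :
    ContDiffOn ℝ n (fun W : ι → ℂ => pr (TT A W) x) (LH ι) :=
  ContDiffOn.sum fun y _ => contDiffOn_TT hA x y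

theorem pr_ne (hA : A.IsSymm) {W : ι → ℂ} (hW : W ∈ LH ι) (x : ι) : pr (TT A W) x ≠ 0 :=
  (pr_TT_pos hA hW x).ne'

/-- `P_v(y)` -/
theorem contDiffOn_TTpr (hA : A.IsSymm) (v y : ι) :
    ContDiffOn ℝ n (fun W : ι → ℂ => TT A W v y / pr (TT A W) v) (LH ι) :=
  (contDiffOn_TT hA v y).div (contDiffOn_pr hA v) fun W hW => pr_ne hA hW v

theorem contDiffOn_Pw (hA : A.IsSymm) (J k : ℕ) (v x : ι) :
    ContDiffOn ℝ n (fun W : ι → ℂ => Pw Φ (TT A W) J k v x) (LH ι) :=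
  ContDiffOn.sum fun y _ => (contDiffOn_TTpr hA v y).mul contDiffOn_const

theorem contDiffOn_ur (hA : A.IsSymm) (J k : ℕ) (x : ι) :
    ContDiffOn ℝ n (fun W : ι → ℂ => ur Φ (TT A W) J k x) (LH ι) := by
  unfold ur
  exact (contDiffOn_Pw hA J k x x).div_const _

theorem contDiffOn_Vr (hA : A.IsSymm) (v : ι) :
    ContDiffOn ℝ n (fun W : ι → ℂ => Vr Φ (TT A W) v) (LH ι) :=
  ContDiffOn.sum fun y _ => (contDiffOn_TTpr hA v y).mul contDiffOn_const

theorem contDiffOn_mur (hA : A.IsSymm) (v : ι) :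
    ContDiffOn ℝ n (fun W : ι → ℂ => mur Φ (TT A W) v) (LH ι) :=
  ContDiffOn.sum fun y _ => (contDiffOn_TTpr hA v y).smul contDiffOn_const

theorem contDiffOn_mur_sq (hA : A.IsSymm) (v : ι) :
    ContDiffOn ℝ n (fun W : ι → ℂ => ‖mur Φ (TT A W) v‖ ^ 2) (LH ι) :=
  (contDiffOn_mur hA v).norm_sq ℝ

theorem ur_nonneg_LH (hA : A.IsSymm) {W : ι → ℂ} (hW : W ∈ LH ι) (J k : ℕ) (x : ι) :
    0 ≤ ur Φ (TT A W) J k x :=
  ur_nonneg (fun a b => TT_nonneg hW a b) (fun a => pr_TT_pos hA hW a) x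

/-! ### the entropy -/

theorem contDiffOn_ur_add (hA : A.IsSymm) (J k : ℕ) (x : ι) (ε : ℝ) :
    ContDiffOn ℝ n (fun W : ι → ℂ => ur Φ (TT A W) J k x + ε) (LH ι) :=
  (contDiffOn_ur hA J k x).add contDiffOn_const

theorem ur_add_ne (hA : A.IsSymm) {W : ι → ℂ} (hW : W ∈ LH ι) (J k : ℕ) (x : ι) {ε : ℝ}
    (hε : 0 < ε) : ur Φ (TT A W) J k x + ε ≠ 0 := by
  have := ur_nonneg_LH (Φ := Φ) hA hW J k x
  positivity

theorem contDiffOn_Gf (hA : A.IsSymm) (J k : ℕ) (x : ι) {ε : ℝ} (hε : 0 < ε) :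
    ContDiffOn ℝ n (fun W : ι → ℂ => Gf ε (ur Φ (TT A W) J k x)) (LH ι) :=
  (contDiffOn_ur hA J k x).mul ((contDiffOn_ur_add hA J k x ε).log
    fun W hW => ur_add_ne hA hW J k x hε)

theorem contDiffOn_Gf1 (hA : A.IsSymm) (J k : ℕ) (x : ι) {ε : ℝ} (hε : 0 < ε) :
    ContDiffOn ℝ n (fun W : ι → ℂ => Gf1 ε (ur Φ (TT A W) J k x)) (LH ι) :=
  ((contDiffOn_ur_add hA J k x ε).log fun W hW => ur_add_ne hA hW J k x hε).add
    ((contDiffOn_ur hA J k x).div (contDiffOn_ur_add hA J k x ε)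
      fun W hW => ur_add_ne hA hW J k x hε)

theorem contDiffOn_Gf2 (hA : A.IsSymm) (J k : ℕ) (x : ι) {ε : ℝ} (hε : 0 < ε) :
    ContDiffOn ℝ n (fun W : ι → ℂ => Gf2 ε (ur Φ (TT A W) J k x)) (LH ι) :=
  (contDiffOn_const.div (contDiffOn_ur_add hA J k x ε) fun W hW => ur_add_ne hA hW J k x hε).add
    (contDiffOn_const.div ((contDiffOn_ur_add hA J k x ε).pow 2)
      fun W hW => pow_ne_zero 2 (ur_add_ne hA hW J k x hε))

theorem contDiffOn_lamf (hA : A.IsSymm) (J k : ℕ) (x : ι) {ε : ℝ} (hε : 0 < ε) :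
    ContDiffOn ℝ n (fun W : ι → ℂ => lamf ε (ur Φ (TT A W) J k x)) (LH ι) :=
  contDiffOn_const.sub ((contDiffOn_ur_add hA J k x ε).log
    fun W hW => ur_add_ne hA hW J k x hε)

/-- one summand of the entropy: `rho_k pi_x G(u_{x,k})` -/
theorem contDiffOn_ups_term (hA : A.IsSymm) (J k : ℕ) (x : ι) {ε : ℝ} (hε : 0 < ε) :
    ContDiffOn ℝ n (fun W : ι → ℂ => rho k * pr (TT A W) x * Gf ε (ur Φ (TT A W) J k x))
      (LH ι) :=
  (contDiffOn_const.mul (contDiffOn_pr hA x)).mul (contDiffOn_Gf hA J k x hε)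

theorem contDiffOn_Ups (hA : A.IsSymm) (J : ℕ) {ε : ℝ} (hε : 0 < ε) :
    ContDiffOn ℝ n (fun W : ι → ℂ => -∑ x, ∑ k ∈ Finset.range (J + 2),
      rho k * pr (TT A W) x * Gf ε (ur Φ (TT A W) J k x)) (LH ι) :=
  (ContDiffOn.sum fun x _ => ContDiffOn.sum fun k _ => contDiffOn_ups_term hA J k x hε).neg

theorem contDiffOn_Pos (hA : A.IsSymm) (J : ℕ) {ε : ℝ} (hε : 0 < ε) :
    ContDiffOn ℝ n (fun W : ι → ℂ => Pos Φ (TT A W) ε J) (LH ι) :=
  ContDiffOn.sum fun k _ => ContDiffOn.sum fun x _ => ContDiffOn.sum fun v _ =>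
    (contDiffOn_TT hA x v).mul (((contDiffOn_lamf hA J k x hε).sub
      (contDiffOn_lamf hA J k v hε)).mul ((contDiffOn_Pw hA J k v v).sub
      (contDiffOn_Pw hA J k x x)))

/-! ### the generator terms -/

theorem contDiffOn_conj_Gr (hA : A.IsSymm) (x y : ι) :
    ContDiffOn ℝ n (fun W : ι → ℂ => conj (Gr A W x y)) (LH ι) :=
  Complex.conjCLE.contDiff.comp_contDiffOn (contDiffOn_Gr hA x y)

theorem contDiffOn_ofReal {f : (ι → ℂ) → ℝ} {s : Set (ι → ℂ)} (hf : ContDiffOn ℝ n f s) :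
    ContDiffOn ℝ n (fun W => ((f W : ℝ) : ℂ)) s :=
  Complex.ofRealCLM.contDiff.comp_contDiffOn hf

theorem contDiffOn_re {f : (ι → ℂ) → ℂ} {s : Set (ι → ℂ)} (hf : ContDiffOn ℝ n f s) :
    ContDiffOn ℝ n (fun W => (f W).re) s :=
  Complex.reCLM.contDiff.comp_contDiffOn hf

theorem contDiffOn_im {f : (ι → ℂ) → ℂ} {s : Set (ι → ℂ)} (hf : ContDiffOn ℝ n f s) :
    ContDiffOn ℝ n (fun W => (f W).im) s :=
  Complex.imCLM.contDiff.comp_contDiffOn hf

theorem mm_ne (hA : A.IsSymm) {W : ι → ℂ} (hW : W ∈ LH ι) (x : ι) : mm A W x ≠ 0 :=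
  (mm_pos hA hW x).ne'

theorem contDiffOn_dthu (hA : A.IsSymm) (J k : ℕ) (y x : ι) :
    ContDiffOn ℝ n (fun W : ι → ℂ => dthu Φ A W J k y x) (LH ι) := by
  unfold dthu
  refine ContDiffOn.neg ?_
  refine ContDiffOn.mul ?_ (contDiffOn_re ?_)
  · refine (contDiff_e x).contDiffOn.div ((contDiffOn_mm hA y).mul
      (contDiffOn_const.mul (contDiffOn_pr hA x))) fun W hW => ?_
    exact mul_ne_zero (mm_ne hA hW y) (mul_ne_zero (P365T2.H37.rho_pos k).ne' (pr_ne hA hW x))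
  · refine (contDiffOn_Gr hA x y).mul (ContDiffOn.sum fun b _ => ?_)
    refine (contDiffOn_ofReal ?_).mul ((contDiffOn_conj_Gr hA x b).mul (contDiffOn_Gr hA y b))
    exact (contDiff_e b).contDiffOn.mul (contDiffOn_const.sub
      (contDiffOn_const.mul (contDiffOn_ur hA J k x)))

theorem contDiffOn_LLU (hA : A.IsSymm) {ε : ℝ} (hε : 0 < ε) (J k : ℕ) (y x : ι) :
    ContDiffOn ℝ n (fun W : ι → ℂ => LLU Φ A W ε J k y x) (LH ι) := by
  unfold LLU
  by_cases h : x = y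
  · simp only [if_pos h]
    refine ContDiffOn.neg ((contDiffOn_const.mul (contDiffOn_pr hA x)).mul ?_)
    exact (contDiffOn_Gf hA J k x hε).sub (((contDiffOn_TTpr hA x x).mul
      (contDiffOn_ur hA J k x)).mul (contDiffOn_Gf1 hA J k x hε))
  · simp only [if_neg h]
    refine ContDiffOn.add ((contDiffOn_Gf1 hA J k x hε).mul ((contDiffOn_TT hA x y).mul
      ((contDiffOn_Pw hA J k y x).sub contDiffOn_const))) ?_
    refine contDiffOn_const.mul ?_
    exact (((contDiffOn_const.mul (contDiffOn_pr hA y)).mul (contDiffOn_pr hA x)).mul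
      (contDiffOn_Gf2 hA J k x hε)).mul ((contDiffOn_dthu hA J k y x).pow 2)

/-! ### landed one-site objects -/

theorem contDiffOn_En (hA : A.IsSymm) (f : ι → ℝ) :
    ContDiffOn ℝ n (fun W : ι → ℂ => En A W f) (LH ι) := by
  unfold En
  refine ContDiffOn.sum fun x _ => ContDiffOn.sum fun y _ => ?_
  exact ((((contDiff_e x).contDiffOn.mul (contDiff_e y).contDiffOn).mul
    (contDiffOn_KK hA x y))).mul contDiffOn_const

theorem contDiffOn_muf (hA : A.IsSymm) (f : ι → ℝ) (x : ι) :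
    ContDiffOn ℝ n (fun W : ι → ℂ => muf A W f x) (LH ι) :=
  (ContDiffOn.sum fun y _ => (contDiffOn_PP hA x y).mul contDiffOn_const).sub contDiffOn_const

theorem Gr_diag_ne (hA : A.IsSymm) {W : ι → ℂ} (hW : W ∈ LH ι) (x : ι) : Gr A W x x ≠ 0 := by
  intro h
  have h1 := mm_pos hA hW x
  rw [mm, h] at h1
  simp at h1

theorem contDiffOn_gw (hA : A.IsSymm) (z a : ι) :
    ContDiffOn ℝ n (fun W : ι → ℂ => gw A W z a) (LH ι) := by
  have h : (fun W : ι → ℂ => gw A W z a) = fun W => Gr A W a z * (Gr A W z z)⁻¹ := by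
    funext W
    rw [gw, div_eq_mul_inv]
  rw [h]
  exact (contDiffOn_Gr hA a z).mul ((contDiffOn_Gr hA z z).inv fun W hW => Gr_diag_ne hA hW z)

theorem contDiffOn_sg (hA : A.IsSymm) (z : ι) :
    ContDiffOn ℝ n (fun W : ι → ℂ => sg A W z) (LH ι) :=
  ((contDiff_apply ℝ ℂ z).contDiffOn).sub ((contDiffOn_Gr hA z z).inv
    fun W hW => Gr_diag_ne hA hW z)

theorem contDiffOn_Nf (hA : A.IsSymm) (f : ι → ℝ) (z : ι) :
    ContDiffOn ℝ n (fun W : ι → ℂ => Nf A W f z) (LH ι) :=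
  ContDiffOn.sum fun a _ => ((contDiff_e a).contDiffOn.mul
    ((contDiffOn_gw hA z a).norm_sq ℝ)).mul contDiffOn_const

theorem contDiffOn_Yf (hA : A.IsSymm) (f : ι → ℝ) (z : ι) :
    ContDiffOn ℝ n (fun W : ι → ℂ => Yf A W f z) (LH ι) :=
  (contDiffOn_Nf hA f z).div (contDiffOn_const.add ((contDiffOn_sg hA z).norm_sq ℝ))
    fun W _ => by positivity

end P365L.T2.Path
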