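import Vale.Agent.P365.T2.H912.XThm
import Vale.Agent.P365.T2.XDefs629
import Vale.Agent.P365.H219.LFlow

/-!
# P365 T2: the energy part `DPart` and the logarithmic energy part `LPart` of 912's `xthm_of`, over
the concrete functionals of `XDefs629` (helper963)
-/

set_option linter.all false

namespace P365T2.H963

open P365L P365O P365T1 P365L.TL Matrix Complex MeasureTheory Filter Topology Set
open Vale.Agent.P365.J376 P365H219 P365T2.H213 P365T2.H320U P365T2.X629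
open P365T2.H912 (Fn DPart LPart)
open scoped ComplexConjugate ENNReal

/-- energy as a functional of a stage and a time -/
noncomputable def FEn (E C1 : ℝ) : Fn := fun _ _ W τ => EnX W E C1 τ
/-- loss -/
noncomputable def FLoss (E C1 : ℝ) : Fn := fun _ _ W τ => LossX W E C1 τ
/-- growth rate -/
noncomputable def FGr (E : ℝ) : Fn := fun _ _ W τ => GrX W E τ
/-- entropy production -/
noncomputable def FPos (E C1 T : ℝ) : Fn := fun _ _ W τ => PosX W E C1 T τ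
/-- error -/
noncomputable def FErr (E C1 : ℝ) : Fn := fun _ _ W τ => ErrX W E C1 τ

section

variable {N : ℕ} [NeZero N] {W : StW N} {lam E C1 η : ℝ}

theorem EnX_eq_DW (τ : ℝ) : EnX W E C1 τ = DW W E (uF N (nJ C1 W.S)) τ := rfl

theorem LossX_eq_LsW (τ : ℝ) : LossX W E C1 τ = LsW W E (uF N (nJ C1 W.S)) τ := rfl

theorem GrX_eq_GW (τ : ℝ) : GrX W E τ = GW W E (nL W.S) τ := rfl

theorem LX_eq_LW (τ : ℝ) : LX W E τ = LW W E (nL W.S) τ := rfl

end

/-- **energy part** -/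
theorem dPart {lam E C1 : ℝ} (hlam : 0 < lam) (hC1 : 0 < C1) :
    DPart lam E C1 (FEn E C1) (FLoss E C1) := by
  refine ⟨16 * C1, by positivity, fun ε hε => ?_⟩
  have hc := CauC_nonneg lam E
  set B : ℝ := 160 * CauC lam E * (C1 + 1) + 1 with hB
  have hB0 : 0 < B := by positivity
  refine ⟨min 1 (ε / B), lt_min one_pos (by positivity), fun N _ W h1 h => ?_⟩
  set η : ℝ := min 1 (ε / B) with hη
  have hη0 : 0 < η := lt_min one_pos (by positivity)
  have hη1 : η ≤ 1 := min_le_left _ _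
  have hη2 : η ≤ ε / B := min_le_right _ _
  refine ⟨fun τ hτ => ?_, ?_, fun τ hτ => ?_, fun τ hτ => ?_⟩
  · have := DW_le h1 hτ (F := uF N (nJ C1 W.S)) (Λf := 4) (by norm_num) VecLip_uF
    have e : EnX W E C1 τ = DW W E (uF N (nJ C1 W.S)) τ := rfl
    show EnX W E C1 τ ≤ _
    rw [e]
    linarith
  · exact (cont_DW h1 (uF N (nJ C1 W.S))).continuousOn
  · exact LsW_nonneg h1 (uF N (nJ C1 W.S)) τ
  · obtain ⟨d, hd, hd'⟩ := dflow h hlam hη0 hη1 hC1 ⟨hτ.1.le, hτ.2.le⟩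
      (F := uF N (nJ C1 W.S)) (Λf := 4) (by norm_num) VecLip_uF
    refine ⟨d, hd, ?_⟩
    have h2 := (le_abs_self _).trans hd'
    have h3 : 10 * CauC lam E * (C1 + 1) * 4 ^ 2 * η ≤ ε := by
      have e1 : η * B ≤ ε := by rwa [le_div_iff₀ hB0] at hη2
      have e2 : 10 * CauC lam E * (C1 + 1) * 4 ^ 2 * η = (B - 1) * η := by rw [hB]; ring
      rw [e2]
      nlinarith
    show d ≤ -(LsW W E (uF N (nJ C1 W.S)) τ) + ε
    linarith

/-! ### the growth for the fixed number of scales -/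

theorem nL_le {S : ℝ} (hS : 0 ≤ S) : (nL S : ℝ) ≤ S / 4 := Nat.floor_le (by positivity)

theorem nL_ge (S : ℝ) : S / 4 - 1 ≤ nL S := by
  have := Nat.lt_floor_add_one (S / 4)
  unfold nL
  linarith

theorem four_pow_nL {S : ℝ} (hS : 0 ≤ S) : (4 : ℝ) ^ nL S ≤ Real.exp (S / 2) := by
  have hl4a : Real.log 4 ≤ 2 := by
    have h1 : Real.log 4 = 2 * Real.log 2 := by
      rw [show (4 : ℝ) = 2 ^ 2 by norm_num, Real.log_pow]; push_cast; ring
    have := Real.log_two_lt_d9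
    linarith
  have h2 := nL_le hS
  have h3 : (0 : ℝ) ≤ nL S := Nat.cast_nonneg _
  calc (4 : ℝ) ^ nL S = Real.exp (nL S * Real.log 4) := by
        rw [← Real.log_pow, Real.exp_log (by positivity)]
    _ ≤ _ := Real.exp_le_exp.2 (by nlinarith)

/-- how small `η` must be for the growth -/
noncomputable def etaG (d C1 : ℝ) : ℝ :=
  min (min 1 (d / (128 * C1))) (1 / (32 * (1 / 2 + (10 * C1 + 2) / d)))

theorem etaG_pos {d C1 : ℝ} (hd : 0 < d) (hC1 : 0 < C1) : 0 < etaG d C1 :=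
  lt_min (lt_min one_pos (by positivity)) (by positivity)

/-- **growth of the logarithmic energy with the fixed number of scales** -/
theorem LX_growth {N : ℕ} [NeZero N] {W : StW N} {lam E C1 η : ℝ} (h : W.Ok lam E C1 η) {d : ℝ}
    (hd : 0 < d) (hη : 0 < η) (hC1 : 0 < C1) (hη1 : η ≤ etaG d C1)
    (hD : d * (N : ℝ) ^ 2 ≤ W.Phi E (phi N) W.S) :
    d / 16 * W.S ≤ LX W E W.S - LX W E 0 := by
  haveI := h.prob
  have e1 : η ≤ 1 := hη1.trans ((min_le_left _ _).trans (min_le_left _ _))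
  have e2 : η ≤ d / (128 * C1) := hη1.trans ((min_le_left _ _).trans (min_le_right _ _))
  have e3 : η ≤ 1 / (32 * (1 / 2 + (10 * C1 + 2) / d)) := hη1.trans (min_le_right _ _)
  have hS1 := stw_S_ge_one h hη e1
  have hS0 : 0 ≤ W.S := by linarith
  have h0 : (0 : ℝ) ∈ Icc 0 W.S := left_mem_Icc.2 hS0
  have h1 : W.S ∈ Icc 0 W.S := right_mem_Icc.2 hS0
  have hN := N_sq_pos (N := N)
  set n₀ : ℕ := ⌈η * W.S / Real.log 4⌉₊ with hn₀
  have hl4b : 1 ≤ Real.log 4 := by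
    have h1 : Real.log 4 = 2 * Real.log 2 := by
      rw [show (4 : ℝ) = 2 ^ 2 by norm_num, Real.log_pow]; push_cast; ring
    have := Real.log_two_gt_d9
    linarith
  have hl4 : 0 < Real.log 4 := by linarith
  have hR0 : 0 ≤ η * W.S := by positivity
  have hn01 : (n₀ : ℝ) ≤ η * W.S + 1 := by
    have h1 := Nat.ceil_lt_add_one (show 0 ≤ η * W.S / Real.log 4 by positivity)
    have h2 : η * W.S / Real.log 4 ≤ η * W.S := div_le_self hR0 hl4b
    linarith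
  have hn02 : Real.exp (η * W.S) ≤ 4 ^ n₀ := by
    have h1 : η * W.S / Real.log 4 ≤ n₀ := Nat.le_ceil _
    have h2 : η * W.S ≤ n₀ * Real.log 4 := by rwa [div_le_iff₀ hl4] at h1
    calc Real.exp (η * W.S) ≤ Real.exp (n₀ * Real.log 4) := Real.exp_le_exp.2 h2
      _ = 4 ^ n₀ := by rw [← Real.log_pow, Real.exp_log (by positivity)]
  have key := LG_growth (A := AT N) (p := W.p) (ν := W.ν) (E := E) (a := phi N) (AT_symm N)
    h.p_nonneg (nL W.S) n₀ (e₀ := eT W.u W.w 0) (e₁ := eT W.u W.w W.S) (stw_e_pos h 0)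
    (stw_e_pos h W.S)
  have hPhi0 : PhiG (AT N) W.p W.ν E (phi N) (eT W.u W.w 0) ≤ 4 * C1 * (N : ℝ) ^ 2 := by
    have := DW_phi_le h h0
    unfold DW at this
    rwa [div_le_iff₀ hN] at this
  have hPhi0' : 0 ≤ PhiG (AT N) W.p W.ν E (phi N) (eT W.u W.w 0) :=
    PhiG_nonneg h.p_nonneg fun l x => (stw_e_pos h 0 l x).le
  have hEM : EMG (AT N) W.p W.ν E (eT W.u W.w W.S) ≤ C1 * Real.exp (-W.S) * (N : ℝ) ^ 2 := by
    rw [EMG_eq_AvG (AT_symm N) (stw_e_pos h W.S)]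
    exact h.weg W.S h1
  have hEM0 := EMG_nonneg (A := AT N) (ν := W.ν) (E := E) (AT_symm N) h.p_nonneg
    (stw_e_pos h W.S)
  have hM4 : M4G (AT N) W.p W.ν E (phi N) (eT W.u W.w 0) ≤ Real.exp (η * W.S) * (N : ℝ) ^ 2 :=
    h.m4_start
  have hD' : d * (N : ℝ) ^ 2 ≤ PhiG (AT N) W.p W.ν E (phi N) (eT W.u W.w W.S) := hD
  have hcard : ((Fintype.card (Fin 4) : ℕ) : ℝ) = 4 := by
    rw [Fintype.card_fin]
    norm_num
  rw [hcard] at key
  -- the four terms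
  have t1 : (W.S / 4 - 1) / 2 * (d * (N : ℝ) ^ 2) ≤
      (nL W.S : ℝ) / 2 * PhiG (AT N) W.p W.ν E (phi N) (eT W.u W.w W.S) := by
    have a1 := nL_ge W.S
    have a2 : (W.S / 4 - 1) / 2 * (d * (N : ℝ) ^ 2) ≤ (nL W.S : ℝ) / 2 * (d * (N : ℝ) ^ 2) :=
      mul_le_mul_of_nonneg_right (by linarith) (by positivity)
    exact a2.trans (mul_le_mul_of_nonneg_left hD' (by positivity))
  have t2 : 4 / 3 * 4 * 4 ^ nL W.S * EMG (AT N) W.p W.ν E (eT W.u W.w W.S) ≤
      6 * C1 * (N : ℝ) ^ 2 := by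
    have a1 := four_pow_nL hS0
    have a2 : (4 : ℝ) ^ nL W.S * EMG (AT N) W.p W.ν E (eT W.u W.w W.S) ≤
        Real.exp (W.S / 2) * (C1 * Real.exp (-W.S) * (N : ℝ) ^ 2) :=
      mul_le_mul a1 hEM hEM0 (Real.exp_pos _).le
    have a3 : Real.exp (W.S / 2) * (C1 * Real.exp (-W.S) * (N : ℝ) ^ 2) =
        Real.exp (W.S / 2 + -W.S) * (C1 * (N : ℝ) ^ 2) := by
      rw [Real.exp_add]; ring
    have a4 : Real.exp (W.S / 2 + -W.S) ≤ 1 := Real.exp_le_one_iff.2 (by linarith)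
    have a5 : Real.exp (W.S / 2 + -W.S) * (C1 * (N : ℝ) ^ 2) ≤ 1 * (C1 * (N : ℝ) ^ 2) :=
      mul_le_mul_of_nonneg_right a4 (by positivity)
    rw [a3] at a2
    have a6 : 0 ≤ C1 * (N : ℝ) ^ 2 := by positivity
    linarith
  have t3 : (n₀ : ℝ) * PhiG (AT N) W.p W.ν E (phi N) (eT W.u W.w 0) ≤
      (η * W.S + 1) * (4 * C1 * (N : ℝ) ^ 2) :=
    mul_le_mul hn01 hPhi0 hPhi0' (by positivity)
  have t4 : 2 * (M4G (AT N) W.p W.ν E (phi N) (eT W.u W.w 0) / 4 ^ n₀) ≤ 2 * (N : ℝ) ^ 2 := by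
    have : M4G (AT N) W.p W.ν E (phi N) (eT W.u W.w 0) / 4 ^ n₀ ≤ (N : ℝ) ^ 2 := by
      rw [div_le_iff₀ (by positivity)]
      calc M4G (AT N) W.p W.ν E (phi N) (eT W.u W.w 0) ≤ Real.exp (η * W.S) * (N : ℝ) ^ 2 := hM4
        _ ≤ 4 ^ n₀ * (N : ℝ) ^ 2 := mul_le_mul_of_nonneg_right hn02 hN.le
        _ = (N : ℝ) ^ 2 * 4 ^ n₀ := mul_comm _ _
    linarith
  have t5 : 4 * C1 * η ≤ d / 32 := by
    rw [le_div_iff₀ (by positivity)] at e2
    linarith
  have t6 : d / 2 + 10 * C1 + 2 ≤ d / 32 * W.S := by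
    have a1 : 32 * (1 / 2 + (10 * C1 + 2) / d) ≤ W.S := by
      refine le_trans ?_ h.S_ge
      rw [le_div_iff₀ hη]
      rw [le_div_iff₀ (by positivity)] at e3
      linarith
    have a2 : d / 32 * (32 * (1 / 2 + (10 * C1 + 2) / d)) ≤ d / 32 * W.S :=
      mul_le_mul_of_nonneg_left a1 (by positivity)
    have a3 : d / 32 * (32 * (1 / 2 + (10 * C1 + 2) / d)) = d / 2 + 10 * C1 + 2 := by
      field_simp
      ring
    linarith
  have t7 : d / 16 * W.S ≤ (W.S / 4 - 1) / 2 * d - 6 * C1 - (η * W.S + 1) * (4 * C1) - 2 := by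
    have a1 : 4 * C1 * η * W.S ≤ d / 32 * W.S := mul_le_mul_of_nonneg_right t5 hS0
    nlinarith
  unfold LX
  rw [← sub_div, le_div_iff₀ hN]
  have t8 : d / 16 * W.S * (N : ℝ) ^ 2 ≤
      ((W.S / 4 - 1) / 2 * d - 6 * C1 - (η * W.S + 1) * (4 * C1) - 2) * (N : ℝ) ^ 2 :=
    mul_le_mul_of_nonneg_right t7 hN.le
  linarith

/-- **logarithmic energy part** -/
theorem lPart {lam E C1 d : ℝ} (hlam : 0 < lam) (hC1 : 0 < C1) (hd : 0 < d) :
    LPart lam E C1 d (FGr E) := by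
  refine ⟨2368 * C1, d / 16, by positivity, by positivity, fun ε hε => ?_⟩
  have hc := CauC_nonneg lam E
  set B : ℝ := 80 * CauC lam E * (C1 + 1) + 1 with hB
  have hB0 : 0 < B := by positivity
  have hg := etaG_pos hd hC1
  refine ⟨min (etaG d C1) (ε / B), lt_min hg (by positivity), fun N _ W h1 h hD => ?_⟩
  set η : ℝ := min (etaG d C1) (ε / B) with hη
  have hη0 : 0 < η := lt_min hg (by positivity)
  have hη3 : η ≤ etaG d C1 := min_le_left _ _
  have hη1 : η ≤ 1 := hη3.trans ((min_le_left _ _).trans (min_le_left _ _))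
  have hη2 : η ≤ ε / B := min_le_right _ _
  have hS1 := stw_S_ge_one h hη0 hη1
  have hS0 : 0 ≤ W.S := by linarith
  refine ⟨fun τ hτ => GW_le h1 (nL W.S) ⟨hτ.1.le, hτ.2.le⟩, LX W E,
    (cont_LW h1 (nL W.S)).continuousOn, fun τ hτ => ?_,
    LX_growth h hd hη0 hC1 hη3 (hD W.S (right_mem_Icc.2 hS0))⟩
  obtain ⟨d', hd', hd''⟩ := lflow h hlam hη0 hη1 hC1 (n := nL W.S)
    ((nL_le hS0).trans (by linarith)) ⟨hτ.1.le, hτ.2.le⟩
  refine ⟨d', hd', ?_⟩
  have h2 := (le_abs_self _).trans hd''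
  have h3 : 80 * CauC lam E * (C1 + 1) * η ≤ ε := by
    have e1 : η * B ≤ ε := by rwa [le_div_iff₀ hB0] at hη2
    have e2 : 80 * CauC lam E * (C1 + 1) * η = (B - 1) * η := by rw [hB]; ring
    rw [e2]
    nlinarith
  show d' ≤ GW W E (nL W.S) τ + ε
  linarith

end P365T2.H963
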