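import Vale.Agent.P365.T2.H831.UPart
import Vale.Agent.P365.T2.H963.Parts
import Vale.Agent.P365.T2.H629.ErrSmall
import Vale.Agent.P365.T2.H784.Q0

/-!
# P365 T2: the final binder of the X side over `XDefs629` (helper963)

`xthm_of_parts`: `XThm Q0` (784's `Q0`) from

* `OneX lam E C1` : 179's `OneFacts2` over the states (259, 179, 863, 862);
* `UPartA 6 lam E C1 ..` : 831 (from `UCore`, `UBd`);
* `QPart Q0 lam E C1 gf (FBn E C1)` : 937.

`DPart`, `LPart`, `ErrPart` are theorems.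
-/

set_option linter.all false

namespace P365T2.H963

open P365L P365O P365T1 P365L.TL Matrix Complex MeasureTheory Filter Topology Set
open Vale.Agent.P365.J376 P365H219 P365T2.H213 P365T2.H320U P365T2.X629 P365T2.H179
open P365T2.H784 (Csc Q0)
open P365T2.H831 (UPartA UCore UBd EnF LossFn PosF uPartA)
open P365T2.H912 (Fn Fn.on DPart LPart UPart QPart ErrPart OnePart onePart_of xthm_of)
open scoped ComplexConjugate ENNReal

/-- dissipation of the count, all the scales (179's (R3)) -/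
noncomputable def FBn (E C1 g : ℝ) : Fn := fun N _ W τ =>
  (∑ s ∈ Finset.range (2 * nJ C1 W.S + 5), Csc W E g (2 ^ s) τ) / (N : ℝ) ^ 2

/-- **ONE**, literal: 179's facts over 629's states and functionals -/
def OneX (lam E C1 : ℝ) : Prop :=
  ∃ (Mob : ℝ → Sta lam E C1 → ℝ) (Om : ℝ → ℝ → Sta lam E C1 → ℝ)
    (Sm : ℝ → ℝ → ℝ → Sta lam E C1 → ℝ),
    OneFacts2 (Sta lam E C1) (FEn E C1).on (FGr E).on (FLoss E C1).on (FErr E C1).on
      (fun T => (FPos E C1 T).on) (fun g => (FBn E C1 g).on) Mob Om Sm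

/-- 831's form with the factor `a` in front of `T` gives 912's form -/
theorem uPart_of_A {lam E C1 a : ℝ} {En Loss : Fn} {Pos : ℝ → Fn} (ha : 1 ≤ a)
    (h : UPartA a lam E C1 En Loss Pos) : UPart lam E C1 En Loss Pos := by
  obtain ⟨K, CU, hK, hCU, h⟩ := h
  refine ⟨K, CU, a, hK, hCU, ha, fun T hT ε hε => ?_⟩
  obtain ⟨η, hη, h⟩ := h T hT ε hε
  refine ⟨η, hη, fun N _ W h1 h2 => ?_⟩
  obtain ⟨g1, U, g2, g3, g4, g5⟩ := h N W h1 h2
  have e0 : (T + CU) * K ≤ (a * (T + 1) + CU) * K := by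
    refine mul_le_mul_of_nonneg_right ?_ hK.le
    nlinarith
  refine ⟨g1, U, by linarith, by linarith, g4, fun τ hτ => ?_⟩
  obtain ⟨d, hd, hd'⟩ := g5 τ hτ
  refine ⟨d, hd, le_trans ?_ hd'⟩
  have e1 := Real.sqrt_nonneg (En N W τ * Loss N W τ)
  have e2 : a * T * Real.sqrt (En N W τ * Loss N W τ) ≤
      a * (T + 1) * Real.sqrt (En N W τ * Loss N W τ) :=
    mul_le_mul_of_nonneg_right (by linarith) e1
  linarith

/-! ### the binder -/

/-- **ONE** with an arbitrary error functional (179's `ErrY`) -/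
def OneXE (lam E C1 : ℝ) (Err : Fn) : Prop :=
  ∃ (Mob : ℝ → Sta lam E C1 → ℝ) (Om : ℝ → ℝ → Sta lam E C1 → ℝ)
    (Sm : ℝ → ℝ → ℝ → Sta lam E C1 → ℝ),
    OneFacts2 (Sta lam E C1) (FEn E C1).on (FGr E).on (FLoss E C1).on Err.on
      (fun T => (FPos E C1 T).on) (fun g => (FBn E C1 g).on) Mob Om Sm

/-- **the X side, any error functional**: 912's parts as hypotheses -/
theorem xthm_gen
    (hOne : ∀ lam E C1 : ℝ, 0 < lam → |E| < 4 + lam → 0 < C1 →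
      ∃ Err : Fn, ErrPart lam E C1 Err ∧ OneXE lam E C1 Err)
    (hU : ∀ lam E C1 : ℝ, 0 < lam → |E| < 4 + lam → 0 < C1 →
      UPart lam E C1 (FEn E C1) (FLoss E C1) (FPos E C1))
    (hQ : ∀ (lam E C1 : ℝ) (gf : ℝ → ℝ), 0 < lam → |E| < 4 + lam → 0 < C1 → (∀ ρ, 1 ≤ gf ρ) →
      QPart Q0 lam E C1 gf (FBn E C1)) : XThm Q0 := by
  refine xthm_of fun lam E C1 d gf hlam hE hC1 hd hgf => ?_
  obtain ⟨Err, hErr, Mob, Om, Sm, h1⟩ := hOne lam E C1 hlam hE hC1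
  exact ⟨FEn E C1, FGr E, FLoss E C1, Err, FPos E C1, FBn E C1, onePart_of h1,
    dPart hlam hC1, lPart hlam hC1 hd, hU lam E C1 hlam hE hC1, hQ lam E C1 gf hlam hE hC1 hgf,
    hErr⟩

/-- **the X side from its open parts** -/
theorem xthm_of_parts
    (hOne : ∀ lam E C1 : ℝ, 0 < lam → |E| < 4 + lam → 0 < C1 → OneX lam E C1)
    (hU : ∀ lam E C1 : ℝ, 0 < lam → |E| < 4 + lam → 0 < C1 →
      UPartA 6 lam E C1 (EnF C1 E) (LossFn C1 E) (PosF C1 E))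
    (hQ : ∀ (lam E C1 : ℝ) (gf : ℝ → ℝ), 0 < lam → |E| < 4 + lam → 0 < C1 → (∀ ρ, 1 ≤ gf ρ) →
      QPart Q0 lam E C1 gf (FBn E C1)) : XThm Q0 := by
  refine xthm_of fun lam E C1 d gf hlam hE hC1 hd hgf => ?_
  obtain ⟨Mob, Om, Sm, h1⟩ := hOne lam E C1 hlam hE hC1
  refine ⟨FEn E C1, FGr E, FLoss E C1, FErr E C1, FPos E C1, FBn E C1, onePart_of h1,
    dPart hlam hC1, lPart hlam hC1 hd, uPart_of_A (by norm_num) (hU lam E C1 hlam hE hC1),
    hQ lam E C1 gf hlam hE hC1 hgf, ?_⟩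
  · intro ε hε
    obtain ⟨η₀, hη₀, h1⟩ := err_small hC1 hε
    exact ⟨η₀, hη₀, fun N _ W _ h τ hτ => h1 W η₀ hη₀ le_rfl h τ ⟨hτ.1.le, hτ.2.le⟩⟩

/-- the same with 831's two inputs -/
theorem xthm_of_core
    (hOne : ∀ lam E C1 : ℝ, 0 < lam → |E| < 4 + lam → 0 < C1 → OneX lam E C1)
    (hCore : ∀ lam E C1 : ℝ, 0 < lam → |E| < 4 + lam → 0 < C1 → UCore lam E C1)
    (hBd : ∀ lam E C1 : ℝ, 0 < lam → |E| < 4 + lam → 0 < C1 → UBd lam E C1)
    (hQ : ∀ (lam E C1 : ℝ) (gf : ℝ → ℝ), 0 < lam → |E| < 4 + lam → 0 < C1 → (∀ ρ, 1 ≤ gf ρ) →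
      QPart Q0 lam E C1 gf (FBn E C1)) : XThm Q0 :=
  xthm_of_parts hOne (fun lam E C1 hlam hE hC1 =>
    uPartA hC1 (hCore lam E C1 hlam hE hC1) (hBd lam E C1 hlam hE hC1)) hQ

end P365T2.H963
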