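import Vale.Agent.P365.T2.H963.XFin
import Vale.Agent.P365.T2.H259.One
import Vale.Agent.P365.T2.H179.OmPath
import Vale.Agent.P365.T2.H784.Lip
import Vale.Agent.P365.T2.H963.ContUps

/-!
# P365 T2: the field `om` of `OneFacts2` over the stages (helper963)

`om_fact : OmX ≤ C / k (PosX T + EnX) + C' (ε g) EnX + C' Bn g + C' ErrX`, the average of 179's
pathwise `om_path`.
-/

set_option linter.all false

namespace P365T2.H963

open P365L hiding Adm
open P365O P365T1 P365L.TL Matrix Complex MeasureTheory Filter Topology Set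
open Vale.Agent.P365.J376 P365H219 P365T2.H213 P365T2.H320U P365T2.X629 P365T2.H179
open P365T2.H905 P365T2.H862 P365T2.H798
open P365T2.H259 hiding Yg_nonneg M4_nonneg EM_nonneg ErrX_nonneg EnX_nonneg
open P365T2.H784 (Csc Q0 fB PhB lsB PhB_nonneg lsB_nonneg)
open P365T2.H912 (Fn Fn.on)
open scoped ComplexConjugate ENNReal

section

variable {N : ℕ} [NeZero N] {W : StW N} {lam E C1 η : ℝ}

/-- monotonicity of the average, left side nonnegative, right side integrable -/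
theorem Av_le_of (h : W.Ok lam E C1 η) (τ : ℝ) {G H : (Tor N → W.Λ) → (Tor N → ℂ) → ℝ}
    (h0 : ∀ l v, 0 ≤ G l (WV E (eT W.u W.w τ l) v))
    (hi : ∀ l, Integrable (fun v => H l (WV E (eT W.u W.w τ l) v)) (Measure.pi fun x => W.ν (l x)))
    (hle : ∀ l v, G l (WV E (eT W.u W.w τ l) v) ≤ H l (WV E (eT W.u W.w τ l) v)) :
    W.Av E τ G ≤ W.Av E τ H := by
  unfold StW.Av AvG
  refine Finset.sum_le_sum fun l _ => mul_le_mul_of_nonneg_left ?_
    (Finset.prod_nonneg fun x _ => h.p_nonneg _)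
  exact integral_mono_of_nonneg (Eventually.of_forall fun v => h0 l v) (hi l)
    (Eventually.of_forall fun v => hle l v)

/-- averages of the dissipation of the blocks -/
theorem Av_CscP (h : W.Ok lam E C1 η) (τ : ℝ) {g : ℝ} (hg : 0 < g) (ρ : ℕ) :
    W.Av E τ (fun l V => CscP (AT N) V (wT W.w τ l) g ρ) = Csc W E g ρ τ := by
  haveI := h.prob
  unfold CscP Csc
  exact P365T2.H784.Av_sum Finset.univ τ fun z l =>
    P365T2.H784.integrable_dis (AT_symm N) _ E (stw_e_pos h τ l) (fB z ρ) hg (stw_w_nonneg h τ l)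

theorem integrable_CscP (h : W.Ok lam E C1 η) (τ : ℝ) {g : ℝ} (hg : 0 < g) (ρ : ℕ)
    (l : Tor N → W.Λ) :
    Integrable (fun v => CscP (AT N) (WV E (eT W.u W.w τ l) v) (wT W.w τ l) g ρ)
      (Measure.pi fun x => W.ν (l x)) := by
  haveI := h.prob
  unfold CscP
  exact integrable_finset_sum _ fun z _ =>
    P365T2.H784.integrable_dis (AT_symm N) _ E (stw_e_pos h τ l) (fB z ρ) hg (stw_w_nonneg h τ l)

theorem FBn_nonneg (h : W.Ok lam E C1 η) {g : ℝ} (hg : 0 < g) (τ : ℝ) :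
    0 ≤ FBn E C1 g N W τ :=
  div_nonneg (Finset.sum_nonneg fun s _ => P365T2.H784.Csc_nonneg h hg _ τ) (sq_nonneg _)

/-- `OmX ≤ EnX` -/
theorem OmX_le_EnX (h : W.Ok lam E C1 η) (θ ε τ : ℝ) : OmX W lam E C1 θ ε τ ≤ EnX W E C1 τ := by
  haveI := h.prob
  have hN := N_sq_pos (N := N)
  unfold OmX EnX
  refine div_le_div_of_nonneg_right ?_ hN.le
  refine le_trans ?_ (Phi_fR_le h (nJ C1 W.S) τ)
  unfold StW.Phi PhiG
  refine Av_le_of h τ (fun l v => OmV_nonneg (AT_symm N) (WV_neg (stw_e_pos h τ l) v) _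
    (omX_nonneg h τ l) _ _ _) (fun l => integrable_sum_En (AT_symm N) _ E (stw_e_pos h τ l) _)
    fun l v => ?_
  have hV := WV_neg (E := E) (stw_e_pos h τ l) v
  rw [OmV_eq (AT_symm N) hV _ _ (omX_nonneg h τ l) (omX_le h τ l),
    ← datOf_En (AT_symm N) hV _ (omX W τ l) (omX_nonneg h τ l) (omX_le h τ l)]
  exact Om_le_En _ _ _ _ _

theorem Av_lin5 (τ : ℝ) {c1 c2 c3 c4 c5 : ℝ} {P G B M : (Tor N → W.Λ) → (Tor N → ℂ) → ℝ}
    {β : Type*} {s : Finset β} {K : β → (Tor N → W.Λ) → (Tor N → ℂ) → ℝ}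
    (iP : ∀ l, Integrable (fun v => P l (WV E (eT W.u W.w τ l) v)) (Measure.pi fun x => W.ν (l x)))
    (iG : ∀ l, Integrable (fun v => G l (WV E (eT W.u W.w τ l) v)) (Measure.pi fun x => W.ν (l x)))
    (iK : ∀ b l, Integrable (fun v => K b l (WV E (eT W.u W.w τ l) v))
      (Measure.pi fun x => W.ν (l x)))
    (iB : ∀ l, Integrable (fun v => B l (WV E (eT W.u W.w τ l) v)) (Measure.pi fun x => W.ν (l x)))
    (iM : ∀ l, Integrable (fun v => M l (WV E (eT W.u W.w τ l) v))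
      (Measure.pi fun x => W.ν (l x))) :
    (W.Av E τ fun l V => (((c1 * (P l V + G l V) + c2 * G l V) + c3 * ∑ b ∈ s, K b l V) +
      c4 * B l V) + c5 * M l V) =
    c1 * (W.Av E τ P + W.Av E τ G) + c2 * W.Av E τ G + c3 * ∑ b ∈ s, W.Av E τ (K b) +
      c4 * W.Av E τ B + c5 * W.Av E τ M := by
  have j1 := fun l => ((iP l).add (iG l)).const_mul c1
  have j2 := fun l => (iG l).const_mul c2
  have j3 := fun l => (integrable_finset_sum s fun b _ => iK b l).const_mul c3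
  have j4 := fun l => (iB l).const_mul c4
  have j5 := fun l => (iM l).const_mul c5
  rw [P365T2.H784.Av_add τ (G := fun l V => ((c1 * (P l V + G l V) + c2 * G l V) +
      c3 * ∑ b ∈ s, K b l V) + c4 * B l V) (G' := fun l V => c5 * M l V)
      (fun l => (((j1 l).add (j2 l)).add (j3 l)).add (j4 l)) j5,
    P365T2.H784.Av_add τ (G := fun l V => (c1 * (P l V + G l V) + c2 * G l V) +
      c3 * ∑ b ∈ s, K b l V) (G' := fun l V => c4 * B l V)
      (fun l => ((j1 l).add (j2 l)).add (j3 l)) j4,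
    P365T2.H784.Av_add τ (G := fun l V => c1 * (P l V + G l V) + c2 * G l V)
      (G' := fun l V => c3 * ∑ b ∈ s, K b l V) (fun l => (j1 l).add (j2 l)) j3,
    P365T2.H784.Av_add τ (G := fun l V => c1 * (P l V + G l V)) (G' := fun l V => c2 * G l V)
      j1 j2,
    P365T2.H784.Av_const_mul, P365T2.H784.Av_const_mul, P365T2.H784.Av_const_mul,
    P365T2.H784.Av_const_mul, P365T2.H784.Av_const_mul,
    P365T2.H784.Av_add τ iP iG, P365T2.H784.Av_sum s τ iK]

theorem M4_eq_Av (τ : ℝ) : W.M4 E τ = W.Av E τ fun _ V => ∑ x, ∑ y,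
    (-(V x).im) * (-(V y).im) * KK (AT N) V x y * dsq x y ^ 2 := rfl

/-- the averaged pathwise inequality -/
theorem om_av (h : W.Ok lam E C1 η) (τ : ℝ) {θ ε g T C C' : ℝ} {i : ℕ} (hg : 0 < g) (hC : 0 ≤ C)
    (hC' : 0 ≤ C') (hε : 0 ≤ ε)
    (hpath : ∀ {A : Matrix (Tor N) (Tor N) ℝ} {V : Tor N → ℂ} (hA : A.IsSymm)
        (hV : ∀ x, (V x).im < 0) (om : Tor N → ℝ) (h0 : ∀ x, 0 ≤ om x) (h1 : ∀ x, om x ≤ 1)
        (Z : Finset (Tor N)),
      Om (datOf A V hA hV (fR N (nJ C1 W.S)) om h0 h1) Finset.univ Z θ ε ≤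
        C * (P365T2.H844.Pos (PhiR N (nJ C1 W.S)) (P365T2.H844.TT A V) (Real.exp (-T))
          (nJ C1 W.S) + (datOf A V hA hV (fR N (nJ C1 W.S)) om h0 h1).En) +
        C' * (ε * g) * (datOf A V hA hV (fR N (nJ C1 W.S)) om h0 h1).En +
        C' * ∑ s ∈ Finset.range (nJ C1 W.S - i),
          CscP A V (fun x => om x * -(V x).im) g (2 ^ (s + i + 2)) +
        C' * Ker.BadE (datOf A V hA hV (fR N (nJ C1 W.S)) om h0 h1) Z +
        C' * ((∑ v, ∑ x, (-(V v).im) * (-(V x).im) * KK A V v x * dsq v x ^ 2) /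
          4 ^ nJ C1 W.S)) :
    (W.Av E τ fun l V => OmV (AT N) (fR N (nJ C1 W.S)) (omX W τ l) (ZX W lam E l V) θ ε V) ≤
      C * ((W.Av E τ fun _ V => P365T2.H844.Pos (PhiR N (nJ C1 W.S)) (P365T2.H844.TT (AT N) V)
        (Real.exp (-T)) (nJ C1 W.S)) + W.Phi E (fR N (nJ C1 W.S)) τ) +
      C' * (ε * g) * W.Phi E (fR N (nJ C1 W.S)) τ +
      C' * ∑ s ∈ Finset.range (nJ C1 W.S - i), Csc W E g (2 ^ (s + i + 2)) τ +
      C' * (W.Av E τ fun l V => BadV (AT N) (fR N (nJ C1 W.S)) (ZX W lam E l V) V) +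
      C' * (W.M4 E τ / 4 ^ nJ C1 W.S) := by
  haveI := h.prob
  have hA := AT_symm N
  set J := nJ C1 W.S with hJ
  have he := stw_e_pos h τ
  -- integrability
  have iP : ∀ l : Tor N → W.Λ, Integrable (fun v => P365T2.H844.Pos (PhiR N J)
      (P365T2.H844.TT (AT N) (WV E (eT W.u W.w τ l) v)) (Real.exp (-T)) J)
      (Measure.pi fun x => W.ν (l x)) := fun l =>
    P365L.T2.Path.integrable_of_continuousOn
      (P365L.T2.Path.contDiffOn_Pos (n := 0) hA J (Real.exp_pos _)).continuousOn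
      (fun x => h.supp (l x)) (he l)
  have iE : ∀ l : Tor N → W.Λ, Integrable (fun v => ∑ k, En (AT N)
      (WV E (eT W.u W.w τ l) v) (fR N J k)) (Measure.pi fun x => W.ν (l x)) := fun l =>
    integrable_sum_En hA _ E (he l) _
  have iC : ∀ (l : Tor N → W.Λ) (s : ℕ), Integrable (fun v => CscP (AT N)
      (WV E (eT W.u W.w τ l) v) (wT W.w τ l) g (2 ^ (s + i + 2)))
      (Measure.pi fun x => W.ν (l x)) := fun l s => integrable_CscP h τ hg _ l
  have iB : ∀ l : Tor N → W.Λ, Integrable (fun v => BadV (AT N) (fR N J)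
      (ZX W lam E l (WV E (eT W.u W.w τ l) v)) (WV E (eT W.u W.w τ l) v))
      (Measure.pi fun x => W.ν (l x)) := fun l =>
    (adm_BadV hA (measurableSet_ZX W lam E l) (fR N J)).integrable (fun x => h.supp (l x)) (he l)
  have iM : ∀ l : Tor N → W.Λ, Integrable (fun v => ∑ x, ∑ y,
      (-(WV E (eT W.u W.w τ l) v x).im) * (-(WV E (eT W.u W.w τ l) v y).im) *
        KK (AT N) (WV E (eT W.u W.w τ l) v) x y * dsq x y ^ 2)
      (Measure.pi fun x => W.ν (l x)) := fun l =>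
    integrable_M4 (a := phi N) hA _ E (he l)
  -- the pointwise bound, averaged
  have key : (W.Av E τ fun l V => OmV (AT N) (fR N J) (omX W τ l) (ZX W lam E l V) θ ε V) ≤
      W.Av E τ fun l V => (((C * (P365T2.H844.Pos (PhiR N J) (P365T2.H844.TT (AT N) V)
          (Real.exp (-T)) J + ∑ k, En (AT N) V (fR N J k)) +
        C' * (ε * g) * ∑ k, En (AT N) V (fR N J k)) +
        C' * ∑ s ∈ Finset.range (J - i), CscP (AT N) V (wT W.w τ l) g (2 ^ (s + i + 2))) +
        C' * BadV (AT N) (fR N J) (ZX W lam E l V) V) +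
        (C' / 4 ^ J) * ∑ x, ∑ y, (-(V x).im) * (-(V y).im) * KK (AT N) V x y * dsq x y ^ 2 := by
    refine Av_le_of h τ (fun l v => OmV_nonneg hA (WV_neg (he l) v) _ (omX_nonneg h τ l) _ _ _)
      (fun l => ?_) fun l v => ?_
    · exact ((((((iP l).add (iE l)).const_mul C).add ((iE l).const_mul (C' * (ε * g)))).add
        ((integrable_finset_sum _ fun s _ => iC l s).const_mul C')).add
        ((iB l).const_mul C')).add ((iM l).const_mul (C' / 4 ^ J))
    · have hV := WV_neg (E := E) (he l) v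
      set V := WV E (eT W.u W.w τ l) v with hVd
      have h1 := hpath hA hV (omX W τ l) (omX_nonneg h τ l) (omX_le h τ l) (ZX W lam E l V)
      rw [← OmV_eq, ← BadV_eq, datOf_En] at h1
      have e1 : (fun x => omX W τ l x * -(V x).im) = wT W.w τ l := by
        funext x
        have him : -(V x).im = eT W.u W.w τ l x := by
          rw [hVd, WV_im0]; ring
        rw [him]
        unfold omX
        exact div_mul_cancel₀ _ (he l x).ne'
      rw [e1] at h1
      refine h1.trans (le_of_eq ?_)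
      ring
  refine key.trans (le_of_eq ?_)
  rw [Av_lin5 (E := E) τ (c1 := C) (c2 := C' * (ε * g)) (c3 := C') (c4 := C') (c5 := C' / 4 ^ J)
    (P := fun _ V => P365T2.H844.Pos (PhiR N J) (P365T2.H844.TT (AT N) V) (Real.exp (-T)) J)
    (G := fun _ V => ∑ k, En (AT N) V (fR N J k)) (s := Finset.range (J - i))
    (K := fun s l V => CscP (AT N) V (wT W.w τ l) g (2 ^ (s + i + 2)))
    (B := fun l V => BadV (AT N) (fR N J) (ZX W lam E l V) V)
    (M := fun _ V => ∑ x, ∑ y, (-(V x).im) * (-(V y).im) * KK (AT N) V x y * dsq x y ^ 2)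
    iP iE (fun s l => iC l s) iB iM, ← M4_eq_Av]
  have e2 : ∑ s ∈ Finset.range (J - i), W.Av E τ (fun l V =>
      CscP (AT N) V (wT W.w τ l) g (2 ^ (s + i + 2))) =
      ∑ s ∈ Finset.range (J - i), Csc W E g (2 ^ (s + i + 2)) τ :=
    Finset.sum_congr rfl fun s _ => Av_CscP h τ hg _
  rw [e2]
  have e3 : (W.Av E τ fun _ V => ∑ k, En (AT N) V (fR N J k)) = W.Phi E (fR N J) τ := rfl
  rw [e3]
  ring

/-- **the field `om`**, literally 259's `OmF` -/
theorem omF {lam E C1 : ℝ} (hlam : 0 < lam) (hC1 : 0 < C1) : P365T2.H259.OmF lam E C1 := by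
  intro θ hθ hθ1
  refine ⟨4 / θ + 2, by positivity, fun k hk => ?_⟩
  obtain ⟨i, C', T₀, hC', hT₀, hpath⟩ := om_path hθ hθ1 hk
  have hCB := CBE_nonneg hlam E
  refine ⟨C' * (2 + CBE lam (bS lam) E) + 16 * C1 + 16 * i, by positivity, T₀, hT₀,
    fun T hT g hg ε hε hε1 N _ W h τ hτ => ?_⟩
  set C2 : ℝ := C' * (2 + CBE lam (bS lam) E) + 16 * C1 + 16 * i with hC2
  haveI := h.prob
  have hN := N_sq_pos (N := N)
  have hg0 : 0 < g := by linarith
  have hA := AT_symm N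
  have hk0 : 0 < k := by linarith
  have hE0 := P365T2.X629.EnX_nonneg h C1 τ
  have hR0 := P365T2.X629.ErrX_nonneg h C1 τ
  have hB0 := FBn_nonneg (E := E) (C1 := C1) h hg0 τ
  have hi0 : (0 : ℝ) ≤ i := Nat.cast_nonneg _
  have hPos0 : 0 ≤ PosX W E C1 T τ := by
    unfold PosX
    refine div_nonneg (P365T2.H784.Av_nonneg h τ fun l v => ?_) hN.le
    exact Pos844_nonneg hA (WV_neg (stw_e_pos h τ l) v) T
  have hOE := OmX_le_EnX h θ ε τ
  have hEle := EnX_le h hτ C1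
  have t1 : 0 ≤ (4 / θ + 2) / k * (PosX W E C1 T τ + EnX W E C1 τ) :=
    mul_nonneg (by positivity) (add_nonneg hPos0 hE0)
  have hC20 : 0 ≤ C2 := by positivity
  have t2 : 0 ≤ C2 * (ε * g) * EnX W E C1 τ := by positivity
  have t3 : 0 ≤ C2 * FBn E C1 g N W τ := mul_nonneg hC20 hB0
  rcases big_or_one_le_ErrX h C1 τ with hbig | hone
  swap
  · -- small tori
    have h1 : 16 * C1 ≤ C2 * ErrX W E C1 τ := by
      have h2 : C2 * 1 ≤ C2 * ErrX W E C1 τ := mul_le_mul_of_nonneg_left hone hC20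
      have h3 : 16 * C1 ≤ C2 := by
        rw [hC2]
        have : 0 ≤ C' * (2 + CBE lam (bS lam) E) := by positivity
        linarith
      linarith
    linarith
  by_cases hJi : i + 1 ≤ nJ C1 W.S
  swap
  · -- short stages
    have h1 : (nJ C1 W.S : ℝ) ≤ i := by
      have : nJ C1 W.S ≤ i := by omega
      exact_mod_cast this
    have h2 := le_nJ C1 W.S
    have hS : 0 < W.S := by
      have := h.S_ge
      rw [div_one] at this
      linarith
    have hinv := inv_S_le_ErrX h C1 τ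
    have h4 : C1 * W.S ≤ i := by linarith
    have h5 : 1 / W.S ≤ ErrX W E C1 τ := by rwa [abs_of_pos hS] at hinv
    have h6 : 16 * C1 ≤ 16 * i * (1 / W.S) := by
      rw [mul_one_div, le_div_iff₀ hS]
      linarith
    have h7 : 16 * i * (1 / W.S) ≤ C2 * ErrX W E C1 τ := by
      refine mul_le_mul ?_ h5 (by positivity) hC20
      rw [hC2]
      have : 0 ≤ C' * (2 + CBE lam (bS lam) E) := by positivity
      linarith
    linarith
  -- the main case
  have hpow : 12 * 2 ^ (nJ C1 W.S + 1) < N :=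
    lt_of_le_of_lt (Nat.mul_le_mul_left _ (Nat.pow_le_pow_right (by norm_num) (by omega))) hbig
  have hav := om_av (θ := θ) h τ (C := (4 / θ + 2) / k) hg0 (by positivity)
    (by linarith : 0 ≤ C') hε.le (i := i) (T := T)
    (fun {A V} hA hV om h0 h1 Z => hpath T hT g hg ε hε hε1 hJi hpow hA hV om h0 h1 Z)
  set J := nJ C1 W.S with hJ
  have hC'0 : 0 ≤ C' := by linarith
  have hcc : 0 ≤ (4 / θ + 2) / k := by positivity
  have hPhi := Phi_fR_le h J τ
  have hPhi0 := P365T2.X629.Phi_nonneg h (fR N J) τ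
  -- the count
  have hcnt : ∑ s ∈ Finset.range (J - i), Csc W E g (2 ^ (s + i + 2)) τ ≤
      ∑ s ∈ Finset.range (2 * J + 5), Csc W E g (2 ^ s) τ := by
    have e1 : ∑ s ∈ Finset.range (J - i), Csc W E g (2 ^ (s + i + 2)) τ =
        ∑ s ∈ (Finset.range (J - i)).map ⟨fun s => s + i + 2, fun a b hab => by
          simp only at hab; omega⟩, Csc W E g (2 ^ s) τ := by
      rw [Finset.sum_map]
      rfl
    rw [e1]
    refine Finset.sum_le_sum_of_subset_of_nonneg (fun s hs => ?_) fun s _ _ =>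
      P365T2.H784.Csc_nonneg h hg0 _ τ
    obtain ⟨a, ha, rfl⟩ := Finset.mem_map.1 hs
    have ha' := Finset.mem_range.1 ha
    have h9 : a + i + 2 < 2 * J + 5 := by omega
    exact Finset.mem_range.2 h9
  -- bad sites and the fourth moment
  have hbad := BadX_le h hlam τ
  have hM4 : W.M4 E τ / 4 ^ J / (N : ℝ) ^ 2 ≤ ErrX W E C1 τ := by
    have h1 := P365T2.X629.Yg_nonneg h (uF N J) τ
    have h2 := P365T2.X629.EM_nonneg h (g := W.u) (fun l x => (Ok_u_pos h l x).le) τ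
    have h4 : 0 ≤ (W.Yg E (uF N J) τ + 16 ^ J * W.EM E W.u τ) / (N : ℝ) ^ 2 := by positivity
    have h5 : 0 ≤ 1 / |W.S| := by positivity
    have h6 : 0 ≤ 192 * (4 : ℝ) ^ J / (N : ℝ) := by positivity
    unfold ErrX
    rw [← hJ, add_div _ (W.M4 E τ / 4 ^ J)]
    linarith
  -- per site
  have hdiv : OmX W lam E C1 θ ε τ ≤ (4 / θ + 2) / k * (PosX W E C1 T τ + EnX W E C1 τ) +
      C' * (ε * g) * EnX W E C1 τ + C' * FBn E C1 g N W τ + C' * BadX W lam E C1 τ +
      C' * (W.M4 E τ / 4 ^ J / (N : ℝ) ^ 2) := by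
    have h1 : OmX W lam E C1 θ ε τ = (W.Av E τ fun l V => OmV (AT N) (fR N J) (omX W τ l)
      (ZX W lam E l V) θ ε V) / (N : ℝ) ^ 2 := rfl
    rw [h1, div_le_iff₀ hN]
    refine hav.trans ?_
    have h2 : PosX W E C1 T τ * (N : ℝ) ^ 2 = W.Av E τ fun _ V =>
        P365T2.H844.Pos (PhiR N J) (P365T2.H844.TT (AT N) V) (Real.exp (-T)) J := by
      unfold PosX
      rw [← hJ, div_mul_cancel₀ _ hN.ne']
    have h3 : EnX W E C1 τ * (N : ℝ) ^ 2 = W.Phi E (uF N J) τ := by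
      unfold EnX
      rw [← hJ, div_mul_cancel₀ _ hN.ne']
    have h4 : FBn E C1 g N W τ * (N : ℝ) ^ 2 =
        ∑ s ∈ Finset.range (2 * J + 5), Csc W E g (2 ^ s) τ := by
      unfold FBn
      rw [← hJ, div_mul_cancel₀ _ hN.ne']
    have h5 : BadX W lam E C1 τ * (N : ℝ) ^ 2 = W.Av E τ fun l V =>
        BadV (AT N) (fR N J) (ZX W lam E l V) V := by
      unfold BadX
      rw [← hJ, div_mul_cancel₀ _ hN.ne']
    have h6 : W.M4 E τ / 4 ^ J / (N : ℝ) ^ 2 * (N : ℝ) ^ 2 = W.M4 E τ / 4 ^ J :=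
      div_mul_cancel₀ _ hN.ne'
    rw [← h2, ← h5]
    have q1 : (4 / θ + 2) / k * (PosX W E C1 T τ * (N : ℝ) ^ 2 + W.Phi E (fR N J) τ) ≤
        (4 / θ + 2) / k * (PosX W E C1 T τ * (N : ℝ) ^ 2 + EnX W E C1 τ * (N : ℝ) ^ 2) := by
      rw [h3]
      exact mul_le_mul_of_nonneg_left (by linarith) hcc
    have q2 : C' * (ε * g) * W.Phi E (fR N J) τ ≤ C' * (ε * g) * (EnX W E C1 τ * (N : ℝ) ^ 2) := by
      rw [h3]
      exact mul_le_mul_of_nonneg_left hPhi (by positivity)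
    have q3 : C' * ∑ s ∈ Finset.range (J - i), Csc W E g (2 ^ (s + i + 2)) τ ≤
        C' * (FBn E C1 g N W τ * (N : ℝ) ^ 2) := by
      rw [h4]
      exact mul_le_mul_of_nonneg_left hcnt hC'0
    have q4 : C' * (W.M4 E τ / 4 ^ J) =
        C' * (W.M4 E τ / 4 ^ J / (N : ℝ) ^ 2 * (N : ℝ) ^ 2) := by rw [h6]
    rw [q4]
    linarith
  have r1 : C' * BadX W lam E C1 τ ≤ C' * ((1 + CBE lam (bS lam) E) * ErrX W E C1 τ) :=
    mul_le_mul_of_nonneg_left hbad hC'0
  have r2 : C' * (W.M4 E τ / 4 ^ J / (N : ℝ) ^ 2) ≤ C' * ErrX W E C1 τ :=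
    mul_le_mul_of_nonneg_left hM4 hC'0
  have hCC : C' ≤ C2 := by
    rw [hC2]
    have : 0 ≤ C' * CBE lam (bS lam) E := mul_nonneg hC'0 hCB
    nlinarith
  have r3 : C' * (ε * g) * EnX W E C1 τ ≤ C2 * (ε * g) * EnX W E C1 τ :=
    mul_le_mul_of_nonneg_right (mul_le_mul_of_nonneg_right hCC (by positivity)) hE0
  have r4 : C' * FBn E C1 g N W τ ≤ C2 * FBn E C1 g N W τ := mul_le_mul_of_nonneg_right hCC hB0
  have r5 : C' * ((1 + CBE lam (bS lam) E) * ErrX W E C1 τ) + C' * ErrX W E C1 τ ≤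
      C2 * ErrX W E C1 τ := by
    have e1 : C' * ((1 + CBE lam (bS lam) E) * ErrX W E C1 τ) + C' * ErrX W E C1 τ =
        (C' * (2 + CBE lam (bS lam) E)) * ErrX W E C1 τ := by ring
    rw [e1]
    refine mul_le_mul_of_nonneg_right ?_ hR0
    rw [hC2]
    linarith [mul_nonneg (by norm_num : (0 : ℝ) ≤ 16) hi0]
  linarith


end

end P365T2.H963
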